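import Mathlib

/-!
# P016 (Artin's primitive root conjecture): safe primes

If `q` and `p = 2 q + 1` are primes, every quadratic non-residue `a ≠ -1` modulo `p` is a primitive
root modulo `p`.  Hence an integer that is a non-residue different from `-1` modulo infinitely many
such `p` is a primitive root modulo infinitely many primes.
-/

namespace Vale.Agent.Results.P016.SafePrimes

theorem sq_eq_one_iff_of_side_cond {p : ℕ} [Fact p.Prime] {a : ZMod p} (h : a ^ 2 = 1) :
    a = 1 ∨ a = -1 := by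
  have h1 : (a - 1) * (a + 1) = 0 := by
    have : (a - 1) * (a + 1) = a ^ 2 - 1 := by ring
    rw [this, h, sub_self]
  rcases mul_eq_zero.1 h1 with h2 | h2
  · exact Or.inl (sub_eq_zero.1 h2)
  · exact Or.inr (eq_neg_of_add_eq_zero_left h2)

theorem order_eq (q p : ℕ) [hp : Fact p.Prime] (hq : q.Prime) (hpq : p = 2 * q + 1)
    (a : ZMod p) (hsq : ¬ IsSquare a) (hneg : a ≠ -1) : orderOf a = p - 1 := by
  have ha0 : a ≠ 0 := by
    rintro rfl
    exact hsq ⟨0, by simp⟩
  have hn : p - 1 = 2 * q := by omega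
  have hhalf : p / 2 = q := by omega
  rw [hn]
  refine orderOf_eq_of_pow_and_pow_div_prime (by have := hq.pos; omega) ?_ ?_
  · rw [← hn]
    exact ZMod.pow_card_sub_one_eq_one ha0
  · intro r hr hdvd
    rcases (Nat.Prime.dvd_mul hr).1 hdvd with h | h
    · have hr2 : r = 2 := (Nat.prime_dvd_prime_iff_eq hr Nat.prime_two).1 h
      rw [hr2, Nat.mul_div_cancel_left _ (by norm_num : 0 < 2)]
      intro h1
      apply hsq
      rw [ZMod.euler_criterion p ha0, hhalf]
      exact h1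
    · have hrq : r = q := (Nat.prime_dvd_prime_iff_eq hr hq).1 h
      rw [hrq, Nat.mul_div_cancel _ hq.pos]
      intro h1
      rcases sq_eq_one_iff_of_side_cond h1 with h2 | h2
      · exact hsq ⟨1, by simp [h2]⟩
      · exact hneg h2

theorem result :
    (∀ (q p : ℕ) [Fact p.Prime], q.Prime → p = 2 * q + 1 →
      ∀ a : ZMod p, ¬ IsSquare a → a ≠ -1 → orderOf a = p - 1) ∧
    (∀ a : ℤ,
      (∀ N : ℕ, ∃ q > N, q.Prime ∧ (2 * q + 1).Prime ∧ ¬ IsSquare (a : ZMod (2 * q + 1)) ∧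
        (a : ZMod (2 * q + 1)) ≠ -1) →
      ∀ N : ℕ, ∃ p > N, p.Prime ∧ orderOf (a : ZMod p) = p - 1) := by
  refine ⟨fun q p _ hq hpq a h1 h2 => order_eq q p hq hpq a h1 h2, ?_⟩
  intro a h N
  obtain ⟨q, hqN, hq, hp, h1, h2⟩ := h N
  haveI : Fact (2 * q + 1).Prime := ⟨hp⟩
  exact ⟨2 * q + 1, by omega, hp, order_eq q (2 * q + 1) hq rfl _ h1 h2⟩

end Vale.Agent.Results.P016.SafePrimes
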